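import Vale.Agent.P022.H567.Cft

/-!
P022-CFT, the real places: `NmR σ n φ a ↔ 0 < φ a ∨ σ ^ c = 1`, where `σ ^ c` is the complex
conjugation above `φ`.
-/

open NumberField IsDedekindDomain TensorProduct Finset

noncomputable section

namespace Vale.Agent.P022.H46

open Vale.Agent.P022.C

section

variable {K L : Type} [Field K] [Field L] [Algebra K L]

theorem tw_tmul (R : Type) [Field R] [Algebra K R] (s : L ≃ₐ[K] L) (r : R) (x : L) :
    tw R s (r ⊗ₜ x) = r ⊗ₜ s x := by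
  simp [tw]

theorem tw_mul (R : Type) [Field R] [Algebra K R] (s t : L ≃ₐ[K] L) (y : R ⊗[K] L) :
    tw R (s * t) y = tw R s (tw R t y) := by
  induction y using TensorProduct.induction_on with
  | zero => simp
  | tmul r x => simp [tw_tmul]
  | add a b ha hb => simp [ha, hb]

theorem tw_one (R : Type) [Field R] [Algebra K R] (y : R ⊗[K] L) :
    tw R (1 : L ≃ₐ[K] L) y = y := by
  induction y using TensorProduct.induction_on with
  | zero => simp
  | tmul r x => simp [tw_tmul]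
  | add a b ha hb => simp [ha, hb]

/-- `∏ σ ^ i y` is fixed by `σ` -/
theorem tw_prod (R : Type) [Field R] [Algebra K R] {n : ℕ} (hn : 0 < n) {σ : L ≃ₐ[K] L}
    (h1 : σ ^ n = 1) (y : R ⊗[K] L) :
    tw R σ (∏ i ∈ range n, tw R (σ ^ i) y) = ∏ i ∈ range n, tw R (σ ^ i) y := by
  obtain ⟨m, rfl⟩ : ∃ m, n = m + 1 := ⟨n - 1, by omega⟩
  have e : ∀ i, tw R σ (tw R (σ ^ i) y) = tw R (σ ^ (i + 1)) y := fun i => by
    rw [← tw_mul, ← pow_succ']
  rw [map_prod, prod_congr rfl fun i _ => e i, prod_range_succ, prod_range_succ', h1, pow_zero]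

theorem tw_pow_prod (R : Type) [Field R] [Algebra K R] {n : ℕ} (hn : 0 < n) {σ : L ≃ₐ[K] L}
    (h1 : σ ^ n = 1) (y : R ⊗[K] L) (j : ℕ) :
    tw R (σ ^ j) (∏ i ∈ range n, tw R (σ ^ i) y) = ∏ i ∈ range n, tw R (σ ^ i) y := by
  induction j with
  | zero => rw [pow_zero, tw_one]
  | succ j ih => rw [pow_succ, tw_mul, tw_prod R hn h1, ih]

/-- an `n`-th power is a norm -/
theorem nm_of_pow {R : Type} [Field R] [Algebra K R] (σ : L ≃ₐ[K] L) (n : ℕ) {a : K} {r : R}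
    (h : r ^ n = algebraMap K R a) : Nm σ n R a := by
  refine ⟨r ⊗ₜ 1, ?_⟩
  have : ∀ i ∈ range n, tw R (σ ^ i) (r ⊗ₜ (1 : L)) = r ⊗ₜ (1 : L) := fun i _ => by
    rw [tw_tmul, map_one]
  rw [prod_congr rfl this, prod_const, card_range, Algebra.TensorProduct.tmul_pow, one_pow, h]
  rw [Algebra.TensorProduct.algebraMap_apply]

theorem nmR_of_pos (σ : L ≃ₐ[K] L) {n : ℕ} (hn : 0 < n) (φ : K →+* ℝ) {a : K} (h : 0 < φ a) :
    NmR σ n φ a := by
  let _ := φ.toAlgebra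
  refine nm_of_pow (R := ℝ) σ n (r := (φ a) ^ ((n : ℝ)⁻¹)) ?_
  rw [Real.rpow_inv_natCast_pow h.le hn.ne']
  rfl

theorem nmR_of_odd (σ : L ≃ₐ[K] L) {n : ℕ} (hn : Odd n) (φ : K →+* ℝ) (a : K) :
    NmR σ n φ a := by
  let _ := φ.toAlgebra
  obtain ⟨r, hr⟩ : ∃ r : ℝ, r ^ n = φ a := by
    rcases le_or_gt 0 (φ a) with h | h
    · exact ⟨(φ a) ^ ((n : ℝ)⁻¹), Real.rpow_inv_natCast_pow h hn.pos.ne'⟩
    · refine ⟨- ((- φ a) ^ ((n : ℝ)⁻¹)), ?_⟩
      rw [hn.neg_pow, Real.rpow_inv_natCast_pow (by linarith) hn.pos.ne', neg_neg]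
  exact nm_of_pow (R := ℝ) σ n (r := r) hr

/-- `r ⊗ x ↦ r ρ(x)` -/
def Phi [Algebra K ℝ] (ρ : L →ₐ[K] ℂ) : ℝ ⊗[K] L →ₐ[ℝ] ℂ :=
  Algebra.TensorProduct.lift (Algebra.ofId ℝ ℂ) ρ fun _ _ => Commute.all _ _

theorem Phi_tmul [Algebra K ℝ] (ρ : L →ₐ[K] ℂ) (r : ℝ) (x : L) :
    Phi ρ (r ⊗ₜ x) = (r : ℂ) * ρ x := by
  simp [Phi, Algebra.ofId_apply]

theorem conj_Phi [Algebra K ℝ] (ρ : L →ₐ[K] ℂ) (τ : L ≃ₐ[K] L)
    (h : ∀ x, starRingEnd ℂ (ρ x) = ρ (τ x)) (y : ℝ ⊗[K] L) :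
    starRingEnd ℂ (Phi ρ y) = Phi ρ (tw ℝ τ y) := by
  induction y using TensorProduct.induction_on with
  | zero => simp
  | tmul r x => rw [tw_tmul, Phi_tmul, Phi_tmul, map_mul, Complex.conj_ofReal, h]
  | add a b ha hb => rw [map_add, map_add, ha, hb, map_add, map_add]

/-- `σ ^ c` has order two or one; in the first case `n = 2 m`, `c ≡ m` modulo `n` -/
theorem conj_pow {n : ℕ} {σ : L ≃ₐ[K] L} (hσ : Cyc K n σ) (ρ : L →+* ℂ) {c : ℕ}
    (hc : ∀ x, starRingEnd ℂ (ρ x) = ρ ((σ ^ c) x)) : n ∣ 2 * c := by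
  rw [← hσ.ord, orderOf_dvd_iff_pow_eq_one, two_mul, pow_add]
  ext x
  apply ρ.injective
  rw [AlgEquiv.mul_apply, ← hc, ← hc, Complex.conj_conj, AlgEquiv.one_apply]

theorem exists_half {n c : ℕ} (hn : 0 < n) (h : n ∣ 2 * c) (h' : ¬ n ∣ c) :
    ∃ m k : ℕ, 0 < m ∧ n = 2 * m ∧ c = m + n * k := by
  obtain ⟨t, ht⟩ := h
  rcases Nat.even_or_odd' t with ⟨s, rfl | rfl⟩
  · exact absurd ⟨s, by nlinarith⟩ h'
  · have h2 : n % 2 = 0 := by
      have : (n * (2 * s + 1)) % 2 = 0 := by omega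
      rw [Nat.mul_mod] at this
      have h3 : (2 * s + 1) % 2 = 1 := by omega
      rw [h3] at this
      omega
    refine ⟨n / 2, s, by omega, by omega, ?_⟩
    have : n = 2 * (n / 2) := by omega
    nlinarith

theorem pos_of_nm [Algebra K ℝ] {n : ℕ} {σ : L ≃ₐ[K] L} (hσ : Cyc K n σ) (ρ : L →ₐ[K] ℂ) {c : ℕ}
    (hc : ∀ x, starRingEnd ℂ (ρ x) = ρ ((σ ^ c) x)) (hc1 : σ ^ c ≠ 1) {a : K} (ha : a ≠ 0)
    (h : Nm σ n ℝ a) : 0 < algebraMap K ℝ a := by
  obtain ⟨y, hy⟩ := h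
  have h1 : σ ^ n = 1 := by rw [← hσ.ord]; exact pow_orderOf_eq_one σ
  obtain ⟨m, k, hm, rfl, hck⟩ := exists_half hσ.pos (conj_pow hσ (ρ : L →+* ℂ) hc)
    fun h => hc1 (by rw [← orderOf_dvd_iff_pow_eq_one, hσ.ord]; exact h)
  have hcm : σ ^ c = σ ^ m := by rw [hck, pow_add, pow_mul, h1, one_pow, mul_one]
  set z : ℕ → ℂ := fun i => Phi ρ (tw ℝ (σ ^ i) y) with hz
  have hzz : ∀ i, z (m + i) = starRingEnd ℂ (z i) := fun i => by
    rw [hz]
    simp only
    rw [conj_Phi ρ (σ ^ c) hc, hcm, ← tw_mul, ← pow_add]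
  have e : ∏ i ∈ range (2 * m), z i = ((algebraMap K ℝ a : ℝ) : ℂ) := by
    have := congrArg (Phi ρ) hy
    rw [map_prod] at this
    rw [hz, this, Algebra.TensorProduct.algebraMap_apply, Phi_tmul, map_one, mul_one]
  rw [two_mul, prod_range_add, prod_congr rfl fun i _ => hzz i, ← prod_mul_distrib,
    prod_congr rfl fun i _ => Complex.mul_conj (z i), ← Complex.ofReal_prod,
    Complex.ofReal_inj] at e
  refine lt_of_le_of_ne (e ▸ prod_nonneg fun i _ => Complex.normSq_nonneg _) fun h0 => ha ?_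
  exact (map_eq_zero (algebraMap K ℝ)).1 h0.symm

/-- if the complex conjugation is trivial, then every element is a norm -/
theorem nm_of_real [Algebra K ℝ] {n : ℕ} {σ : L ≃ₐ[K] L} (hσ : Cyc K n σ) (f : L →ₐ[K] ℝ)
    (a : K) : Nm σ n ℝ a := by
  have h1 : σ ^ n = 1 := by rw [← hσ.ord]; exact pow_orderOf_eq_one σ
  have : Module.Finite K L := Module.finite_of_finrank_pos (by rw [hσ.rank]; exact hσ.pos)
  -- the evaluations
  let Q : ℝ ⊗[K] L →ₐ[ℝ] ℝ :=
    Algebra.TensorProduct.lift (AlgHom.id ℝ ℝ) f fun _ _ => Commute.all _ _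
  have hQ : ∀ (r : ℝ) (x : L), Q (r ⊗ₜ x) = r * f x := fun r x => by simp [Q]
  let Ψ : ℝ ⊗[K] L →ₗ[ℝ] (Fin n → ℝ) :=
    LinearMap.pi fun i => Q.toLinearMap ∘ₗ (tw ℝ (σ ^ (i : ℕ))).toLinearMap
  have hΨ : ∀ y i, Ψ y i = Q (tw ℝ (σ ^ (i : ℕ)) y) := fun y i => rfl
  have hli : LinearIndependent ℝ fun i : Fin n =>
      ((((f.comp ((σ ^ (i : ℕ) : L ≃ₐ[K] L) : L →ₐ[K] L)) : L →+* ℝ) : L →* ℝ) : L → ℝ) := by
    refine (linearIndependent_monoidHom L ℝ).comp _ fun i j hij => ?_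
    have h2 : σ ^ (i : ℕ) = σ ^ (j : ℕ) := by
      ext x
      apply f.injective
      have := DFunLike.congr_fun hij x
      exact this
    have h3 := pow_injOn_Iio_orderOf (x := σ)
    rw [hσ.ord] at h3
    exact Fin.ext (h3 i.2 j.2 h2)
  have hsurj : Function.Surjective Ψ := by
    rw [← LinearMap.dualMap_injective_iff, injective_iff_map_eq_zero]
    intro g hg
    have h4 : ∀ x : L, ∑ i : Fin n, g (Pi.single i 1) • f ((σ ^ (i : ℕ)) x) = 0 := fun x => by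
      have h5 := LinearMap.congr_fun hg (1 ⊗ₜ x)
      rw [LinearMap.dualMap_apply, LinearMap.zero_apply] at h5
      rw [← h5]
      conv_rhs => rw [pi_eq_sum_univ' (Ψ (1 ⊗ₜ x))]
      rw [map_sum]
      refine sum_congr rfl fun i _ => ?_
      rw [map_smul, hΨ, tw_tmul, hQ, one_mul, smul_eq_mul, smul_eq_mul, mul_comm]
    have h6 := Fintype.linearIndependent_iff.1 hli (fun i => g (Pi.single i 1)) (by
      ext x
      have := h4 x
      simpa using this)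
    refine LinearMap.pi_ext' fun i => ?_
    ext
    simpa using h6 i
  have hfin : Module.finrank ℝ (ℝ ⊗[K] L) = Module.finrank ℝ (Fin n → ℝ) := by
    rw [Module.finrank_baseChange, hσ.rank, Module.finrank_fin_fun]
  have hinj : Function.Injective Ψ :=
    (LinearMap.injective_iff_surjective_of_finrank_eq_finrank hfin).2 hsurj
  obtain ⟨y, hy⟩ := hsurj fun i => if (i : ℕ) = 0 then algebraMap K ℝ a else 1
  refine ⟨y, hinj ?_⟩
  ext j
  rw [hΨ, hΨ, tw_pow_prod ℝ hσ.pos h1, map_prod]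
  have h7 : ∀ i ∈ range n, Q (tw ℝ (σ ^ i) y) = if i = 0 then algebraMap K ℝ a else 1 :=
    fun i hi => by
      have := congrFun hy ⟨i, mem_range.1 hi⟩
      rw [hΨ] at this
      exact this
  rw [prod_congr rfl h7, prod_ite_eq' (range n) 0 fun _ => algebraMap K ℝ a,
    if_pos (mem_range.2 hσ.pos), Algebra.TensorProduct.algebraMap_apply, tw_tmul, map_one, hQ,
    map_one, mul_one]

/-- **the real places** -/
theorem nmR_iff {n : ℕ} {σ : L ≃ₐ[K] L} (hσ : Cyc K n σ) (φ : K →+* ℝ) (ρ : L →+* ℂ)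
    (hρ : ∀ x : K, ρ (algebraMap K L x) = (φ x : ℂ)) {c : ℕ}
    (hc : ∀ x, starRingEnd ℂ (ρ x) = ρ ((σ ^ c) x)) {a : K} (ha : a ≠ 0) :
    NmR σ n φ a ↔ 0 < φ a ∨ σ ^ c = 1 := by
  let _ := φ.toAlgebra
  let ρ' : L →ₐ[K] ℂ := { ρ with commutes' := fun x => hρ x }
  constructor
  · intro h
    by_contra hcon
    push Not at hcon
    exact absurd (pos_of_nm hσ ρ' hc hcon.2 ha h) (not_lt.2 hcon.1)
  · rintro (h | h)
    · exact nmR_of_pos σ hσ.pos φ h
    · have hre : ∀ x, ((ρ x).re : ℂ) = ρ x := fun x => by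
        have := hc x
        rw [h, AlgEquiv.one_apply] at this
        exact Complex.conj_eq_iff_re.1 this
      let f : L →ₐ[K] ℝ :=
        { toFun := fun x => (ρ x).re
          map_one' := by simp
          map_mul' := fun x y => by
            apply Complex.ofReal_injective
            rw [hre, map_mul, Complex.ofReal_mul, hre, hre]
          map_zero' := by simp
          map_add' := fun x y => by simp
          commutes' := fun x => by
            show (ρ (algebraMap K L x)).re = φ x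
            rw [hρ, Complex.ofReal_re] }
      exact nm_of_real hσ f a

end

end Vale.Agent.P022.H46
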