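import Vale.Agent.P022.H567.Real
import Vale.Agent.P022.H46.Real

/-!
P022-CFT: [RP], [RS], [RQ] of `H567/Real.lean`.
-/

open NumberField IsDedekindDomain TensorProduct Finset

noncomputable section

namespace Vale.Agent.P022.H46

open Vale.Agent.P022.C

/-- there is a complex place above `φ` -/
theorem exists_rho {K L : Type} [Field K] [Field L] [Algebra K L] [Algebra.IsAlgebraic K L]
    (φ : K →+* ℝ) : ∃ ρ : L →+* ℂ, ∀ x, ρ (algebraMap K L x) = (φ x : ℂ) := by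
  let _ : Algebra K ℂ := ((algebraMap ℝ ℂ).comp φ).toAlgebra
  exact ⟨(IsAlgClosed.lift : L →ₐ[K] ℂ), fun x =>
    (IsAlgClosed.lift : L →ₐ[K] ℂ).commutes x⟩

theorem alg_of_cyc {K L : Type} [Field K] [Field L] [Algebra K L] {n : ℕ} {σ : L ≃ₐ[K] L}
    (hσ : Cyc K n σ) : Algebra.IsAlgebraic K L := by
  have : Module.Finite K L := Module.finite_of_finrank_pos (by rw [hσ.rank]; exact hσ.pos)
  infer_instance

/-- global norms are norms over every field -/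
theorem nm_of_global {K L : Type} [Field K] [Field L] [Algebra K L] {n : ℕ} {σ : L ≃ₐ[K] L}
    (R : Type) [Field R] [Algebra K R] {a : K}
    (h : ∃ y : L, ∏ i ∈ range n, (σ ^ i) y = algebraMap K L a) : Nm σ n R a := by
  obtain ⟨y, hy⟩ := h
  refine ⟨1 ⊗ₜ y, ?_⟩
  rw [prod_congr rfl fun i _ => tw_tmul R (σ ^ i) 1 y]
  have e : ∀ s : Finset ℕ, ∏ i ∈ s, ((1 : R) ⊗ₜ[K] (σ ^ i) y) = 1 ⊗ₜ ∏ i ∈ s, (σ ^ i) y := fun s => by
    exact (map_prod (Algebra.TensorProduct.includeRight : L →ₐ[K] R ⊗[K] L)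
      (fun i => (σ ^ i) y) s).symm
  rw [e, hy]
  exact (Algebra.TensorProduct.includeRight : L →ₐ[K] R ⊗[K] L).commutes a

theorem RP : RPStmt := by
  intro K L _ _ _ _ _ n σ hσ φ c hc hc1 a ha h
  have := alg_of_cyc hσ
  obtain ⟨ρ, hρ⟩ := exists_rho (L := L) φ
  exact ((nmR_iff hσ φ ρ hρ (hc ρ hρ) ha).1 h).resolve_right hc1

theorem RS : RSStmt := by
  intro K L _ _ _ _ _ n σ hσ φ c hc hc1 a ha
  have := alg_of_cyc hσ
  obtain ⟨ρ, hρ⟩ := exists_rho (L := L) φ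
  exact (nmR_iff hσ φ ρ hρ (hc ρ hρ) ha).2 (Or.inr hc1)

theorem RQ : RQStmt := by
  intro K L _ _ _ _ _ n σ hσ φ
  have := alg_of_cyc hσ
  obtain ⟨ρ, hρ⟩ := exists_rho (L := L) φ
  refine ⟨fun a h => nmR_of_pos σ hσ.pos φ h, fun c hc => conj_pow hσ ρ (hc ρ hρ), fun a h => ?_⟩
  let _ := φ.toAlgebra
  exact nm_of_global ℝ h

end Vale.Agent.P022.H46
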